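import Vale.Agent.Lib.P012_helper5.Defs

/-!
# P012c, module D: every digit is a sum of two good numerators
-/

namespace Vale.Agent.Lib.P012c

open Finset

theorem digit_one (Z M k : ℕ) (G : ℕ → Prop) (hk : 1 ≤ k)
    (hsmall : ∀ g, 1 ≤ g → g ≤ 513 → g ∣ Z)
    (hgood : ∀ g, G g → 1 ≤ g → g < M → ∀ B, Z ∣ B → 0 < B →
      ∃ S : Finset ℕ, S.card ≤ k ∧ (∀ n ∈ S, 1 ≤ n ∧ n * g ≤ B * 512) ∧
        ∑ n ∈ S, (1 / n : ℚ) = g / B)
    (B : ℕ) (hZB : Z ∣ B) (hB : 0 < B) (g : ℕ) (hg1 : 1 ≤ g) (hgM : g < M)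
    (hg : g ≤ 513 ∨ G g) :
    ∃ S : Finset ℕ, S.card ≤ k ∧ (∀ n ∈ S, 1 ≤ n ∧ n ≤ B ∧ n * g ≤ B * 512) ∧
      ∑ n ∈ S, (1 / n : ℚ) = g / B := by
  by_cases h513 : g ≤ 513
  · have hgB : g ∣ B := (hsmall g hg1 h513).trans hZB
    obtain ⟨m, rfl⟩ := hgB
    have hm : 0 < m := Nat.pos_of_mul_pos_left hB
    refine ⟨{m}, by simpa using hk, ?_, ?_⟩
    · intro n hn
      rw [Finset.mem_singleton] at hn
      subst hn
      refine ⟨hm, Nat.le_mul_of_pos_left _ (by omega), ?_⟩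
      nlinarith
    · rw [Finset.sum_singleton]
      have h1 : (g : ℚ) ≠ 0 := by
        have : 0 < g := hg1
        exact_mod_cast this.ne'
      have h2 : (m : ℚ) ≠ 0 := by exact_mod_cast hm.ne'
      push_cast
      field_simp
  · have hG : G g := by
      rcases hg with h | h
      · exact absurd h h513
      · exact h
    obtain ⟨S, h1, h2, h3⟩ := hgood g hG hg1 hgM B hZB hB
    refine ⟨S, h1, ?_, h3⟩
    intro n hn
    obtain ⟨ha, hb⟩ := h2 n hn
    refine ⟨ha, ?_, hb⟩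
    have : n * 512 ≤ B * 512 := by
      calc n * 512 ≤ n * g := Nat.mul_le_mul_left _ (by omega)
        _ ≤ B * 512 := hb
    omega

theorem digit_split (M : ℕ) (G : ℕ → Prop)
    (hdens : ∀ X < M, ∀ T ⊆ Icc 1 X, (∀ g ∈ T, ¬ G g) → T.card * 2 ^ 11 ≤ X)
    (c : ℕ) (hc : c < M) (hc514 : 514 ≤ c) :
    ∃ g', 1 ≤ g' ∧ 514 * g' ≤ c ∧ G g' ∧ G (c - g') := by
  classical
  set X := c / 514 with hX
  have hX1 : 1 ≤ X := by omega
  have hXc : 514 * X ≤ c := by omega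
  have hcX : c < 514 * (X + 1) := by omega
  by_contra hcon
  push Not at hcon
  set T₁ := (Icc 1 X).filter (fun g => ¬ G g) with hT₁
  set T₂' := (Icc 1 X).filter (fun g => ¬ G (c - g)) with hT₂'
  set T₂ := T₂'.image (fun g => c - g) with hT₂
  have h1 : T₁.card * 2 ^ 11 ≤ X :=
    hdens X (by omega) T₁ (Finset.filter_subset _ _) (fun g hg => (Finset.mem_filter.1 hg).2)
  have h2 : T₂.card * 2 ^ 11 ≤ c := by
    apply hdens c hc T₂
    · intro g hg
      obtain ⟨g', hg', rfl⟩ := Finset.mem_image.1 hg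
      have := Finset.mem_Icc.1 (Finset.mem_filter.1 hg').1
      rw [Finset.mem_Icc]
      omega
    · intro g hg
      obtain ⟨g', hg', rfl⟩ := Finset.mem_image.1 hg
      exact (Finset.mem_filter.1 hg').2
  have h3 : T₂.card = T₂'.card := by
    apply Finset.card_image_of_injOn
    intro a ha b hb hab
    have ha' := Finset.mem_Icc.1 (Finset.mem_filter.1 ha).1
    have hb' := Finset.mem_Icc.1 (Finset.mem_filter.1 hb).1
    simp only at hab
    omega
  have h4 : Icc 1 X ⊆ T₁ ∪ T₂' := by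
    intro g hg
    have hg' := Finset.mem_Icc.1 hg
    rw [Finset.mem_union, hT₁, hT₂', Finset.mem_filter, Finset.mem_filter]
    by_cases hG : G g
    · right
      exact ⟨hg, hcon g hg'.1 (by omega) hG⟩
    · left
      exact ⟨hg, hG⟩
  have h5 : X ≤ T₁.card + T₂'.card := by
    calc X = (Icc 1 X).card := by simp
      _ ≤ (T₁ ∪ T₂').card := Finset.card_le_card h4
      _ ≤ T₁.card + T₂'.card := Finset.card_union_le _ _
  omega

theorem digit (Z M k : ℕ) (G : ℕ → Prop) (hk : 1 ≤ k)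
    (hsmall : ∀ g, 1 ≤ g → g ≤ 513 → g ∣ Z)
    (hgood : ∀ g, G g → 1 ≤ g → g < M → ∀ B, Z ∣ B → 0 < B →
      ∃ S : Finset ℕ, S.card ≤ k ∧ (∀ n ∈ S, 1 ≤ n ∧ n * g ≤ B * 512) ∧
        ∑ n ∈ S, (1 / n : ℚ) = g / B)
    (hdens : ∀ X < M, ∀ T ⊆ Icc 1 X, (∀ g ∈ T, ¬ G g) → T.card * 2 ^ 11 ≤ X) :
    ∀ B : ℕ, Z ∣ B → 0 < B → ∀ c < M, URep (2 * k) ((c : ℚ) / B) B := by
  intro B hZB hB c hc
  have hBq : (0 : ℚ) < B := by exact_mod_cast hB
  rcases Nat.eq_zero_or_pos c with rfl | hc0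
  · exact ⟨∅, by simp, by simp, by simp⟩
  by_cases hc514 : c ≤ 513
  · obtain ⟨S, h1, h2, h3⟩ := digit_one Z M k G hk hsmall hgood B hZB hB c hc0 hc (Or.inl hc514)
    exact ⟨S, by omega, fun n hn => ⟨(h2 n hn).1, (h2 n hn).2.1⟩, h3⟩
  obtain ⟨g', hg1, hg2, hG', hG⟩ := digit_split M G hdens c hc (by omega)
  obtain ⟨S₁, a1, a2, a3⟩ := digit_one Z M k G hk hsmall hgood B hZB hB (c - g') (by omega)
    (by omega) (Or.inr hG)
  obtain ⟨S₂, b1, b2, b3⟩ := digit_one Z M k G hk hsmall hgood B hZB hB g' hg1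
    (by omega) (Or.inr hG')
  have hdis : Disjoint S₁ S₂ := by
    rw [Finset.disjoint_left]
    intro n hn1 hn2
    have hn0 : 1 ≤ n := (a2 n hn1).1
    have hnq : (0 : ℚ) < n := by exact_mod_cast hn0
    have h1 : (1 / n : ℚ) ≤ ∑ m ∈ S₂, (1 / m : ℚ) :=
      Finset.single_le_sum (f := fun m : ℕ => (1 / m : ℚ)) (fun m _ => by positivity) hn2
    rw [b3, div_le_div_iff₀ hnq hBq] at h1
    have h2 : B ≤ g' * n := by
      have : (B : ℚ) ≤ g' * n := by linarith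
      exact_mod_cast this
    have h3 := (a2 n hn1).2.2
    have h4 : n * (513 * g') ≤ n * (c - g') := Nat.mul_le_mul_left _ (by omega)
    have h5 : 0 < g' * n := by positivity
    nlinarith
  refine ⟨S₁ ∪ S₂, ?_, ?_, ?_⟩
  · have := Finset.card_union_le S₁ S₂
    omega
  · intro n hn
    rcases Finset.mem_union.mp hn with h | h
    · exact ⟨(a2 n h).1, (a2 n h).2.1⟩
    · exact ⟨(b2 n h).1, (b2 n h).2.1⟩
  · rw [Finset.sum_union hdis, a3, b3, ← add_div]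
    congr 1
    have : c - g' + g' = c := by omega
    exact_mod_cast this

end Vale.Agent.Lib.P012c
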