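import Vale.Agent.Lib.P012_helper5.Defs

/-!
# P012c, module S: a dyadic window of subset products
-/

namespace Vale.Agent.Lib.P012c

open Finset

theorem exists_window (P : Finset ℕ) (h : ℕ) (hPp : ∀ p ∈ P, p.Prime) (hPh : ∀ p ∈ P, p ≤ 2 ^ h) :
    ∃ (A : Finset ℕ) (e : ℕ), (∀ a ∈ A, a ∣ ∏ p ∈ P, p) ∧
      (∀ a ∈ A, 2 ^ e ≤ a ∧ a < 2 ^ (e + 1)) ∧ e ≤ h * P.card ∧
      2 ^ P.card ≤ A.card * (h * P.card + 1) := by
  classical
  set F := P.powerset.image (fun I => ∏ p ∈ I, p) with hF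
  have hFcard : F.card = 2 ^ P.card := by
    rw [hF, Finset.card_image_of_injOn, Finset.card_powerset]
    intro I hI J hJ hIJ
    have hI' := Finset.mem_powerset.1 hI
    have hJ' := Finset.mem_powerset.1 hJ
    have h1 := Nat.primeFactors_prod (fun p hp => hPp p (hI' hp))
    have h2 := Nat.primeFactors_prod (fun p hp => hPp p (hJ' hp))
    simp only at hIJ
    rw [← h1, ← h2, hIJ]
  have hFdvd : ∀ a ∈ F, a ∣ ∏ p ∈ P, p := by
    intro a ha
    obtain ⟨I, hI, rfl⟩ := Finset.mem_image.1 ha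
    exact Finset.prod_dvd_prod_of_subset _ _ _ (Finset.mem_powerset.1 hI)
  have hFpos : ∀ a ∈ F, 0 < a := by
    intro a ha
    obtain ⟨I, hI, rfl⟩ := Finset.mem_image.1 ha
    exact Finset.prod_pos (fun p hp => (hPp p (Finset.mem_powerset.1 hI hp)).pos)
  have hFle : ∀ a ∈ F, a ≤ 2 ^ (h * P.card) := by
    intro a ha
    have h1 : a ≤ ∏ p ∈ P, p :=
      Nat.le_of_dvd (Finset.prod_pos (fun p hp => (hPp p hp).pos)) (hFdvd a ha)
    calc a ≤ ∏ p ∈ P, p := h1
      _ ≤ (2 ^ h) ^ P.card := Finset.prod_le_pow_card _ _ _ hPh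
      _ = 2 ^ (h * P.card) := by rw [← pow_mul]
  set t := range (h * P.card + 1) with ht
  have hmaps : ∀ a ∈ F, Nat.log 2 a ∈ t := by
    intro a ha
    rw [ht, Finset.mem_range, Nat.lt_succ_iff]
    calc Nat.log 2 a ≤ Nat.log 2 (2 ^ (h * P.card)) := Nat.log_mono_right (hFle a ha)
      _ = h * P.card := Nat.log_pow (by norm_num) _
  have hsum := Finset.card_eq_sum_card_fiberwise hmaps
  have hex : ∃ e ∈ t, F.card ≤ (F.filter (fun a => Nat.log 2 a = e)).card * (h * P.card + 1) := by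
    by_contra hcon
    push Not at hcon
    have hne : t.Nonempty := ⟨0, by rw [ht]; simp⟩
    have h1 : ∑ e ∈ t, (F.filter (fun a => Nat.log 2 a = e)).card * (h * P.card + 1)
        < ∑ _e ∈ t, F.card := Finset.sum_lt_sum_of_nonempty hne hcon
    rw [← Finset.sum_mul, ← hsum, Finset.sum_const, ht, Finset.card_range, smul_eq_mul,
      mul_comm] at h1
    exact lt_irrefl _ h1
  obtain ⟨e, he, hcard⟩ := hex
  refine ⟨F.filter (fun a => Nat.log 2 a = e), e, ?_, ?_, ?_, ?_⟩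
  · intro a ha
    exact hFdvd a (Finset.mem_filter.1 ha).1
  · intro a ha
    obtain ⟨ha1, ha2⟩ := Finset.mem_filter.1 ha
    have hne : a ≠ 0 := (hFpos a ha1).ne'
    rw [← ha2]
    exact ⟨Nat.pow_log_le_self 2 hne, Nat.lt_pow_succ_log_self (by norm_num) a⟩
  · rw [ht, Finset.mem_range] at he
    omega
  · rw [← hFcard]
    exact hcard

end Vale.Agent.Lib.P012c
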