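import Vale.Agent.Lib.P012_helper13.LLCover
import Vale.Agent.Lib.P012_helper13.LLPrimes
import Vale.Agent.Lib.P012_helper12.LLGreedy

/-!
# P012, third bound `N(b) = O(log log b)`: common definitions
-/

namespace Vale.Agent.Lib.P012c

open Finset
open Vale.Agent.Lib.P012b

/-- `x` is a sum of at most `t` distinct unit fractions with denominators in `[1, L]`. -/
def URep (t : ℕ) (x : ℚ) (L : ℕ) : Prop :=
  ∃ S : Finset ℕ, S.card ≤ t ∧ (∀ n ∈ S, 1 ≤ n ∧ n ≤ L) ∧ ∑ n ∈ S, (1 / n : ℚ) = x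

/-- the family `A` has no excess of collisions modulo the product of the primes in `Q`. -/
def NB (Q A : Finset ℕ) : Prop := coll Q A ^ 4 * (∏ q ∈ Q, q) ^ 3 ≤ A.card ^ 8

/-- the good numerators. -/
def Good (y E K Θ : ℕ) (P A₁ B₁ A₂ B₂ : Finset ℕ) (g : ℕ) : Prop :=
  (∀ n, 2 ≤ n → ¬ n ^ (E + 1) ∣ g) ∧ (∀ n, y < n → ¬ n ^ 2 ∣ g) ∧
  g.primeFactors.card ≤ K ∧ (∀ p ∈ P, ¬ p ∣ g) ∧
  (∀ Q ⊆ g.primeFactors, Q.Nonempty → (∀ q ∈ Q, y < q) →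
    NB Q A₁ ∧ NB Q B₁ ∧ (Θ < ∏ q ∈ Q, q → NB Q A₂ ∧ NB Q B₂))

end Vale.Agent.Lib.P012c
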