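import Mathlib

/-!
# P012c: numerical inequalities for the parameters
-/

namespace Vale.Agent.Lib.P012c

theorem pow12_le (i : ℕ) (hi : 1000 ≤ i) : i ^ 12 ≤ 2 ^ (i - 200) := by
  have h1 : i / 16 < 2 ^ (i / 16) := Nat.lt_two_pow_self
  have h2 : i < 16 * (i / 16 + 1) := by omega
  have h3 : i ≤ 2 ^ (i / 16 + 4) := by
    have : 16 * (i / 16 + 1) ≤ 16 * 2 ^ (i / 16) := Nat.mul_le_mul_left _ h1
    calc i ≤ 16 * 2 ^ (i / 16) := by omega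
      _ = 2 ^ (i / 16 + 4) := by rw [pow_add]; ring
  calc i ^ 12 ≤ (2 ^ (i / 16 + 4)) ^ 12 := Nat.pow_le_pow_left h3 _
    _ = 2 ^ ((i / 16 + 4) * 12) := by rw [← pow_mul]
    _ ≤ 2 ^ (i - 200) := Nat.pow_le_pow_right (by norm_num) (by omega)

/-- the parameter `tau`. -/
def tauP (i : ℕ) : ℕ := 2 * i * (i + 16) + 15

/-- the parameter `w₁`. -/
def w1P (i : ℕ) : ℕ := 16 * i * (4 * tauP i) + 1

/-- the parameter `w₂`. -/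
def w2P (i : ℕ) : ℕ := 16 * i * 2 ^ (i + 2) + 1

/-- the parameter `y₀`. -/
def y0P (i : ℕ) : ℕ := 2 ^ 16 * w1P i

/-- the parameter `y`. -/
def yP (i : ℕ) : ℕ := y0P i ^ 4

theorem tauP_le (i : ℕ) (hi : 1000 ≤ i) : tauP i ≤ 3 * i ^ 2 := by
  unfold tauP
  nlinarith

theorem w1P_le (i : ℕ) (hi : 1000 ≤ i) : w1P i ≤ 2 ^ 8 * i ^ 3 := by
  have h := tauP_le i hi
  unfold w1P
  have h1 : 16 * i * (4 * tauP i) ≤ 16 * i * (4 * (3 * i ^ 2)) :=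
    Nat.mul_le_mul_left _ (Nat.mul_le_mul_left _ h)
  have h2 : 1 ≤ i ^ 3 := Nat.one_le_pow _ _ (by omega)
  nlinarith

theorem yP_le (i : ℕ) (hi : 1000 ≤ i) : yP i ≤ 2 ^ (i - 104) := by
  have h := w1P_le i hi
  have h0 : y0P i ≤ 2 ^ 24 * i ^ 3 := by
    unfold y0P
    calc 2 ^ 16 * w1P i ≤ 2 ^ 16 * (2 ^ 8 * i ^ 3) := Nat.mul_le_mul_left _ h
      _ = 2 ^ 24 * i ^ 3 := by ring
  unfold yP
  calc y0P i ^ 4 ≤ (2 ^ 24 * i ^ 3) ^ 4 := Nat.pow_le_pow_left h0 _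
    _ = 2 ^ 96 * i ^ 12 := by ring
    _ ≤ 2 ^ 96 * 2 ^ (i - 200) := Nat.mul_le_mul_left _ (pow12_le i hi)
    _ = 2 ^ (i - 104) := by
        rw [← pow_add]
        have : 96 + (i - 200) = i - 104 := by omega
        rw [this]

theorem y0P_le_yP (i : ℕ) : y0P i ≤ yP i := by
  unfold yP
  have h1 : 1 ≤ y0P i := by
    unfold y0P w1P
    have : 1 ≤ 2 ^ 16 * (16 * i * (4 * tauP i) + 1) := by
      have h2 : 1 ≤ 16 * i * (4 * tauP i) + 1 := by omega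
      nlinarith
    exact this
  calc y0P i = y0P i ^ 1 := (pow_one _).symm
    _ ≤ y0P i ^ 4 := Nat.pow_le_pow_right h1 (by norm_num)

theorem w1P_le_y0P (i : ℕ) : 2 ^ 16 * w1P i ≤ y0P i := le_rfl

theorem tauP_le_w1P (i : ℕ) : 128 * i * tauP i ≤ 2 * w1P i := by
  unfold w1P
  nlinarith

theorem two_pow16_le_y0P (i : ℕ) : 2 ^ 16 ≤ y0P i := by
  unfold y0P w1P
  nlinarith

theorem w2P_succ_le (i : ℕ) (hi : 1000 ≤ i) : w2P i + 1 ≤ 2 ^ (2 * i) := by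
  have h1 : i ^ 12 ≤ 2 ^ (i - 200) := pow12_le i hi
  have h2 : 64 * i + 2 ≤ i ^ 12 := by
    have : i ^ 2 ≤ i ^ 12 := Nat.pow_le_pow_right (by omega) (by norm_num)
    nlinarith
  have h3 : 2 ^ (i - 200) ≤ 2 ^ i := Nat.pow_le_pow_right (by norm_num) (by omega)
  have h4 : 1 ≤ 2 ^ i := Nat.one_le_two_pow
  unfold w2P
  calc 16 * i * 2 ^ (i + 2) + 1 + 1 = 64 * i * 2 ^ i + 2 := by rw [pow_add]; ring
    _ ≤ (64 * i + 2) * 2 ^ i := by nlinarith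
    _ ≤ 2 ^ i * 2 ^ i := Nat.mul_le_mul_right _ (h2.trans (h1.trans h3))
    _ = 2 ^ (2 * i) := by rw [← pow_add]; congr 1; omega

theorem theta_ok (i : ℕ) (hi : 1000 ≤ i) :
    (w2P i + 1) ^ (i + 16) * 2 ^ 15 ≤ 2 ^ tauP i := by
  calc (w2P i + 1) ^ (i + 16) * 2 ^ 15 ≤ (2 ^ (2 * i)) ^ (i + 16) * 2 ^ 15 :=
        Nat.mul_le_mul_right _ (Nat.pow_le_pow_left (w2P_succ_le i hi) _)
    _ = 2 ^ tauP i := by
        rw [← pow_mul, ← pow_add]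
        rfl

theorem card1_aux (τ w c : ℕ) (hw : w ≤ 2 ^ τ) (hA : 2 ^ (4 * τ) ≤ c * w) :
    ((2 ^ τ) ^ 4) ^ 3 ≤ c ^ 4 := by
  have e1 : 3 * τ + τ = 4 * τ := by omega
  have h1 : 2 ^ (3 * τ) * 2 ^ τ ≤ c * 2 ^ τ := by
    calc 2 ^ (3 * τ) * 2 ^ τ = 2 ^ (4 * τ) := by rw [← pow_add, e1]
      _ ≤ c * w := hA
      _ ≤ c * 2 ^ τ := Nat.mul_le_mul_left _ hw
  have h2 : 2 ^ (3 * τ) ≤ c := Nat.le_of_mul_le_mul_right h1 (by positivity)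
  have e2 : τ * (4 * 3) = 3 * τ * 4 := by ring
  calc ((2 ^ τ) ^ 4) ^ 3 = (2 ^ (3 * τ)) ^ 4 := by
        rw [← pow_mul, ← pow_mul, ← pow_mul, e2]
    _ ≤ c ^ 4 := Nat.pow_le_pow_left h2 _

theorem card2_aux (m w c : ℕ) (hw : w ≤ 2 ^ m) (hA : 2 ^ (2 * m) ≤ c * w) :
    (2 ^ m) ^ 3 ≤ c ^ 4 := by
  have e1 : m + m = 2 * m := by omega
  have h1 : 2 ^ m * 2 ^ m ≤ c * 2 ^ m := by
    calc 2 ^ m * 2 ^ m = 2 ^ (2 * m) := by rw [← pow_add, e1]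
      _ ≤ c * w := hA
      _ ≤ c * 2 ^ m := Nat.mul_le_mul_left _ hw
  have h2 : 2 ^ m ≤ c := Nat.le_of_mul_le_mul_right h1 (by positivity)
  calc (2 ^ m) ^ 3 ≤ (2 ^ m) ^ 4 := Nat.pow_le_pow_right (by positivity) (by norm_num)
    _ ≤ c ^ 4 := Nat.pow_le_pow_left h2 _

theorem Z_exp_le (i y τ w : ℕ) (hi : 1000 ≤ i) (hy : y ≤ 2 ^ (i - 104)) (hτ : 128 * i * τ ≤ 2 * w)
    (hw : w ≤ 2 ^ i) :
    34 * y + 5130 + 16 * i * (8 * τ + 2 ^ (i + 3)) ≤ i * 2 ^ (i + 9) := by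
  have e0 : 104 + (i - 104) = i := by omega
  have e1 : 34 * y ≤ 2 ^ i := by
    have : (2 : ℕ) ^ i = 2 ^ 104 * 2 ^ (i - 104) := by
      rw [← pow_add, e0]
    rw [this]
    calc 34 * y ≤ 34 * 2 ^ (i - 104) := Nat.mul_le_mul_left _ hy
      _ ≤ 2 ^ 104 * 2 ^ (i - 104) := Nat.mul_le_mul_right _ (by norm_num)
  have e2 : 5130 ≤ 2 ^ i := by
    calc 5130 ≤ 2 ^ 13 := by norm_num
      _ ≤ 2 ^ i := Nat.pow_le_pow_right (by norm_num) (by omega)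
  have e3 : 16 * i * (8 * τ + 2 ^ (i + 3)) = 128 * i * τ + 128 * (i * 2 ^ i) := by
    rw [pow_add]; ring
  have e4 : i * 2 ^ (i + 9) = 512 * (i * 2 ^ i) := by rw [pow_add]; ring
  have e5 : 2 ^ i ≤ i * 2 ^ i := Nat.le_mul_of_pos_left _ (by omega)
  rw [e3, e4]
  omega

theorem PY_aux (i τ : ℕ) (hi : 1000 ≤ i) (hτ : 8 * τ ≤ 2 ^ i) :
    (8 * τ + 2 ^ (i + 3)) * 2 ^ 15 ≤ 2 ^ (8 * i) := by
  have h1 : (2 : ℕ) ^ (i + 3) = 8 * 2 ^ i := by rw [pow_add]; ring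
  have h2 : (8 * τ + 2 ^ (i + 3)) * 2 ^ 15 ≤ 2 ^ (i + 19) := by
    have : (2 : ℕ) ^ (i + 19) = 2 ^ i * 16 * 2 ^ 15 := by rw [pow_add]; ring
    rw [this]
    apply Nat.mul_le_mul_right
    omega
  exact h2.trans (Nat.pow_le_pow_right (by norm_num) (by omega))

theorem factorial513_le : Nat.factorial 513 ≤ 2 ^ 5130 := by
  calc Nat.factorial 513 ≤ 513 ^ 513 := Nat.factorial_le_pow 513
    _ ≤ (2 ^ 10) ^ 513 := Nat.pow_le_pow_left (by norm_num) _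
    _ = 2 ^ 5130 := (pow_mul 2 10 513).symm

theorem primorial17_le (y : ℕ) : (primorial y) ^ 17 ≤ 2 ^ (34 * y) := by
  have e : 2 * (y * 17) = 34 * y := by ring
  calc (primorial y) ^ 17 ≤ (4 ^ y) ^ 17 := Nat.pow_le_pow_left (primorial_le_four_pow y) _
    _ = 2 ^ (34 * y) := by
      have : (4 : ℕ) = 2 ^ 2 := by norm_num
      rw [this, ← pow_mul, ← pow_mul, e]

theorem Ky_aux (i y : ℕ) (h2 : i + 16 ≤ y) (h16 : 2 ^ 16 ≤ y) : 2 ^ 17 * (i + 16) < y ^ 3 := by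
  have h3 : 2 ^ 17 < y ^ 2 := by nlinarith
  calc 2 ^ 17 * (i + 16) ≤ 2 ^ 17 * y := Nat.mul_le_mul_left _ h2
    _ < y ^ 2 * y := Nat.mul_lt_mul_of_pos_right h3 (by omega)
    _ = y ^ 3 := by ring

end Vale.Agent.Lib.P012c
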