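import Vale.Agent.Lib.P012_helper16.CGoodRep
import Vale.Agent.Lib.P012_helper15.CDensityCore
import Vale.Agent.Lib.P012_helper20.CCountOmega
import Vale.Agent.Lib.P012_helper11.CBad1
import Vale.Agent.Lib.P012_helper11.CBad2
import Vale.Agent.Lib.P012_helper5.CDigit
import Vale.Agent.Lib.P012_helper5.CWindow
import Vale.Agent.Lib.P012_helper5.LevelNum

/-!
# P012c: one level: every digit is a sum of 32 unit fractions
-/

namespace Vale.Agent.Lib.P012c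

open Finset
open Vale.Agent.Lib.P012b

theorem exists_four (S : Finset ℕ) (a b : ℕ) (h : 2 * a + 2 * b ≤ S.card) :
    ∃ P₁ P₂ P₃ P₄ : Finset ℕ, P₁ ⊆ S ∧ P₂ ⊆ S ∧ P₃ ⊆ S ∧ P₄ ⊆ S ∧
      P₁.card = a ∧ P₂.card = a ∧ P₃.card = b ∧ P₄.card = b ∧
      Disjoint P₁ P₂ ∧ Disjoint (P₁ ∪ P₂) P₃ ∧ Disjoint (P₁ ∪ P₂ ∪ P₃) P₄ := by
  obtain ⟨P₁, h1, c1⟩ := Finset.exists_subset_card_eq (s := S) (n := a) (by omega)
  have hc2 : a ≤ (S \ P₁).card := by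
    rw [Finset.card_sdiff_of_subset h1]; omega
  obtain ⟨P₂, h2, c2⟩ := Finset.exists_subset_card_eq hc2
  have d12 : Disjoint P₁ P₂ := by
    rw [Finset.disjoint_left]
    intro x hx hx2
    exact (Finset.mem_sdiff.1 (h2 hx2)).2 hx
  have h2' : P₂ ⊆ S := h2.trans Finset.sdiff_subset
  have h12 : P₁ ∪ P₂ ⊆ S := Finset.union_subset h1 h2'
  have c12 : (P₁ ∪ P₂).card = 2 * a := by
    rw [Finset.card_union_of_disjoint d12]; omega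
  have hc3 : b ≤ (S \ (P₁ ∪ P₂)).card := by
    rw [Finset.card_sdiff_of_subset h12]; omega
  obtain ⟨P₃, h3, c3⟩ := Finset.exists_subset_card_eq hc3
  have d123 : Disjoint (P₁ ∪ P₂) P₃ := by
    rw [Finset.disjoint_left]
    intro x hx hx2
    exact (Finset.mem_sdiff.1 (h3 hx2)).2 hx
  have h3' : P₃ ⊆ S := h3.trans Finset.sdiff_subset
  have h123 : P₁ ∪ P₂ ∪ P₃ ⊆ S := Finset.union_subset h12 h3'
  have c123 : (P₁ ∪ P₂ ∪ P₃).card = 2 * a + b := by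
    rw [Finset.card_union_of_disjoint d123]; omega
  have hc4 : b ≤ (S \ (P₁ ∪ P₂ ∪ P₃)).card := by
    rw [Finset.card_sdiff_of_subset h123]; omega
  obtain ⟨P₄, h4, c4⟩ := Finset.exists_subset_card_eq hc4
  have d1234 : Disjoint (P₁ ∪ P₂ ∪ P₃) P₄ := by
    rw [Finset.disjoint_left]
    intro x hx hx2
    exact (Finset.mem_sdiff.1 (h4 hx2)).2 hx
  exact ⟨P₁, P₂, P₃, P₄, h1, h2', h3', h4.trans Finset.sdiff_subset, c1, c2, c3, c4, d12, d123,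
    d1234⟩

theorem level_of (hC : CoverAbsStmt) (i : ℕ) (hi : 1000 ≤ i) :
    ∃ Z : ℕ, 2 ≤ Z ∧ Z ≤ 2 ^ (i * 2 ^ (i + 9)) ∧
      ∀ B : ℕ, Z ∣ B → 0 < B → ∀ c : ℕ, c < 2 ^ 2 ^ (i + 1) → URep 32 ((c : ℚ) / B) B := by
  set τ := tauP i with hτ
  set y := yP i with hy
  set y₀ := y0P i with hy₀
  set w₁ := w1P i with hw₁
  set w₂ := w2P i with hw₂
  have hyle : y ≤ 2 ^ (i - 104) := yP_le i hi
  have hy0y : y₀ ≤ y := y0P_le_yP i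
  have hw1y0 : 2 ^ 16 * w₁ ≤ y₀ := le_rfl
  have h16y0 : 2 ^ 16 ≤ y₀ := two_pow16_le_y0P i
  have hpi : (2 : ℕ) ^ (i - 104) ≤ 2 ^ i := Nat.pow_le_pow_right (by norm_num) (by omega)
  have hτw : 128 * i * τ ≤ 2 * w₁ := tauP_le_w1P i
  have hw1i : w₁ ≤ 2 ^ i := by
    have : w₁ ≤ 2 ^ 16 * w₁ := by omega
    omega
  have hτi : 8 * τ ≤ 2 ^ i := by
    have : 8 * τ ≤ 128 * i * τ := by
      have : 8 ≤ 128 * i := by omega
      exact Nat.mul_le_mul_right _ this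
    omega
  -- the primes
  have hcard : 2 * (4 * τ) + 2 * 2 ^ (i + 2) ≤ (PP i).card := by
    have h1 := card_PP_ge i (by omega)
    have h2 : (2 : ℕ) ^ i ≤ (2 ^ i) ^ 14 := by
      calc (2 : ℕ) ^ i = (2 ^ i) ^ 1 := (pow_one _).symm
        _ ≤ (2 ^ i) ^ 14 := Nat.pow_le_pow_right Nat.one_le_two_pow (by norm_num)
    have h3 : (2 : ℕ) ^ (i + 2) = 4 * 2 ^ i := by rw [pow_add]; ring
    omega
  obtain ⟨P₁, P₂, P₃, P₄, s1, s2, s3, s4, c1, c2, c3, c4, d12, d123, d1234⟩ :=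
    exists_four (PP i) (4 * τ) (2 ^ (i + 2)) hcard
  set P := P₁ ∪ P₂ ∪ P₃ ∪ P₄ with hP
  have hPsub : P ⊆ PP i := Finset.union_subset (Finset.union_subset (Finset.union_subset s1 s2) s3) s4
  have hPp : ∀ p ∈ P, p.Prime := fun p hp => (mem_PP (hPsub hp)).1
  have hPlo : ∀ p ∈ P, 2 ^ (8 * i) < p := fun p hp => (mem_PP (hPsub hp)).2.1
  have hPhi : ∀ p ∈ P, p ≤ 2 ^ (16 * i) := fun p hp => (mem_PP (hPsub hp)).2.2.1
  have hPcard : P.card = 8 * τ + 2 ^ (i + 3) := by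
    rw [hP, Finset.card_union_of_disjoint d1234, Finset.card_union_of_disjoint d123,
      Finset.card_union_of_disjoint d12, c1, c2, c3, c4]
    have : (2 : ℕ) ^ (i + 3) = 2 * 2 ^ (i + 2) := by rw [pow_succ]; ring
    omega
  have hPprod : ∏ p ∈ P, p = (∏ p ∈ P₁, p) * (∏ p ∈ P₂, p) * (∏ p ∈ P₃, p) * (∏ p ∈ P₄, p) := by
    rw [hP, Finset.prod_union d1234, Finset.prod_union d123, Finset.prod_union d12]
  -- the windows
  obtain ⟨A₁, e₁, a1d, a1w, a1e, a1c⟩ := exists_window P₁ (16 * i)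
    (fun p hp => (mem_PP (s1 hp)).1) (fun p hp => (mem_PP (s1 hp)).2.2.1)
  obtain ⟨B₁, e₂, b1d, b1w, b1e, b1c⟩ := exists_window P₂ (16 * i)
    (fun p hp => (mem_PP (s2 hp)).1) (fun p hp => (mem_PP (s2 hp)).2.2.1)
  obtain ⟨A₂, e₃, a2d, a2w, a2e, a2c⟩ := exists_window P₃ (16 * i)
    (fun p hp => (mem_PP (s3 hp)).1) (fun p hp => (mem_PP (s3 hp)).2.2.1)
  obtain ⟨B₂, e₄, b2d, b2w, b2e, b2c⟩ := exists_window P₄ (16 * i)
    (fun p hp => (mem_PP (s4 hp)).1) (fun p hp => (mem_PP (s4 hp)).2.2.1)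
  rw [c1] at a1e a1c
  rw [c2] at b1e b1c
  rw [c3] at a2e a2c
  rw [c4] at b2e b2c
  -- sizes of the families
  have hiτ : i ≤ τ := by
    rw [hτ]; unfold tauP; nlinarith
  have hw1τ : w₁ ≤ 2 ^ τ := hw1i.trans (Nat.pow_le_pow_right (by norm_num) hiτ)
  have card1 : ∀ A : Finset ℕ, 2 ^ (4 * τ) ≤ A.card * (16 * i * (4 * τ) + 1) →
      ((2 ^ τ) ^ 4) ^ 3 ≤ A.card ^ 4 := fun A hA => card1_aux τ _ _ hw1τ hA
  have hw2M : w₂ ≤ 2 ^ 2 ^ (i + 1) := by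
    have h1 := w2P_succ_le i hi
    have h2 : 2 * i ≤ 2 ^ (i + 1) := by
      have : i < 2 ^ i := Nat.lt_two_pow_self
      rw [pow_succ]; omega
    have h3 : (2 : ℕ) ^ (2 * i) ≤ 2 ^ 2 ^ (i + 1) := Nat.pow_le_pow_right (by norm_num) h2
    omega
  have e22 : (2 : ℕ) ^ (i + 2) = 2 * 2 ^ (i + 1) := by rw [pow_succ 2 (i + 1)]; ring
  have card2 : ∀ A : Finset ℕ, 2 ^ 2 ^ (i + 2) ≤ A.card * (16 * i * 2 ^ (i + 2) + 1) →
      (2 ^ 2 ^ (i + 1)) ^ 3 ≤ A.card ^ 4 := by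
    intro A hA
    apply card2_aux (2 ^ (i + 1)) _ _ hw2M
    rw [← e22]
    exact hA
  have lt1 : ∀ (A : Finset ℕ) (e : ℕ), (∀ a ∈ A, 2 ^ e ≤ a ∧ a < 2 ^ (e + 1)) →
      e ≤ 16 * i * (4 * τ) → ∀ a ∈ A, a < 2 ^ w₁ := by
    intro A e hA he a ha
    have hw : e + 1 ≤ w₁ := Nat.succ_le_succ he
    exact (hA a ha).2.trans_le (Nat.pow_le_pow_right (by norm_num) hw)
  have lt2 : ∀ (A : Finset ℕ) (e : ℕ), (∀ a ∈ A, 2 ^ e ≤ a ∧ a < 2 ^ (e + 1)) →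
      e ≤ 16 * i * 2 ^ (i + 2) → ∀ a ∈ A, a < 2 ^ w₂ := by
    intro A e hA he a ha
    have hw : e + 1 ≤ w₂ := Nat.succ_le_succ he
    exact (hA a ha).2.trans_le (Nat.pow_le_pow_right (by norm_num) hw)
  -- `y` against the primes
  have hy8 : y < 2 ^ (8 * i) := by
    have : (2 : ℕ) ^ (i - 104) < 2 ^ (8 * i) := Nat.pow_lt_pow_right (by norm_num) (by omega)
    omega
  have hPy : ∀ p ∈ P, y < p := fun p hp => hy8.trans (hPlo p hp)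
  have h16y : 2 ^ 16 ≤ y := h16y0.trans hy0y
  have hKy : 2 ^ 17 * (i + 16) < y ^ 3 := by
    have h1 : i + 16 ≤ w₁ := by
      have : 128 * i * 1 ≤ 128 * i * τ := Nat.mul_le_mul_left _ (by omega)
      omega
    exact Ky_aux i y (by omega) h16y
  have hPY : P.card * 2 ^ 15 ≤ 2 ^ (8 * i) := by
    rw [hPcard]
    exact PY_aux i τ hi hτi
  -- the modulus
  set Z := (primorial y) ^ 17 * Nat.factorial 513 * ∏ p ∈ P, p with hZ
  have hprodpos : 0 < ∏ p ∈ P, p := Finset.prod_pos (fun p hp => (hPp p hp).pos)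
  have hprimpos : 0 < primorial y := primorial_pos y
  have hZ2 : 2 ≤ Z := by
    have h1 : 2 ≤ Nat.factorial 513 := by
      calc 2 = Nat.factorial 2 := rfl
        _ ≤ Nat.factorial 513 := Nat.factorial_le (by norm_num)
    have h2 : 1 ≤ (primorial y) ^ 17 := Nat.one_le_pow _ _ hprimpos
    calc 2 = 1 * 2 * 1 := by norm_num
      _ ≤ (primorial y) ^ 17 * Nat.factorial 513 * ∏ p ∈ P, p :=
        Nat.mul_le_mul (Nat.mul_le_mul h2 h1) hprodpos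
  have hZle : Z ≤ 2 ^ (i * 2 ^ (i + 9)) := by
    have h3 : ∏ p ∈ P, p ≤ 2 ^ (16 * i * (8 * τ + 2 ^ (i + 3))) := by
      calc ∏ p ∈ P, p ≤ (2 ^ (16 * i)) ^ P.card := Finset.prod_le_pow_card _ _ _ hPhi
        _ = 2 ^ (16 * i * (8 * τ + 2 ^ (i + 3))) := by rw [hPcard, ← pow_mul]
    calc Z ≤ 2 ^ (34 * y) * 2 ^ 5130 * 2 ^ (16 * i * (8 * τ + 2 ^ (i + 3))) :=
          Nat.mul_le_mul (Nat.mul_le_mul (primorial17_le y) factorial513_le) h3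
      _ = 2 ^ (34 * y + 5130 + 16 * i * (8 * τ + 2 ^ (i + 3))) := by rw [← pow_add, ← pow_add]
      _ ≤ 2 ^ (i * 2 ^ (i + 9)) :=
          Nat.pow_le_pow_right (by norm_num) (Z_exp_le i y τ w₁ hi hyle hτw hw1i)
  refine ⟨Z, hZ2, hZle, ?_⟩
  have hdvdU : ∀ a ∈ A₁ ∪ B₁ ∪ A₂ ∪ B₂, a ∣ ∏ p ∈ P, p := by
    intro a ha
    rw [hPprod]
    simp only [Finset.mem_union] at ha
    rcases ha with ((ha | ha) | ha) | ha
    · exact Dvd.dvd.mul_right (Dvd.dvd.mul_right (Dvd.dvd.mul_right (a1d a ha) _) _) _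
    · exact Dvd.dvd.mul_right (Dvd.dvd.mul_right (Dvd.dvd.mul_left (b1d a ha) _) _) _
    · exact Dvd.dvd.mul_right (Dvd.dvd.mul_left (a2d a ha) _) _
    · exact Dvd.dvd.mul_left (b2d a ha) _
  have hdiv : ∀ a₁ ∈ A₁, ∀ b₁ ∈ B₁, ∀ a₂ ∈ A₂, ∀ b₂ ∈ B₂, a₁ * b₁ * a₂ * b₂ ∣ ∏ p ∈ P, p := by
    intro a₁ h1 b₁ h2 a₂ h3 b₂ h4
    rw [hPprod]
    exact mul_dvd_mul (mul_dvd_mul (mul_dvd_mul (a1d _ h1) (b1d _ h2)) (a2d _ h3)) (b2d _ h4)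
  have hfinal := digit Z (2 ^ 2 ^ (i + 1)) 16
    (Good y 17 (i + 16) ((2 ^ τ) ^ 4) P A₁ B₁ A₂ B₂) (by norm_num)
    (fun g hg1 hg2 => by
      have h1 : g ∣ Nat.factorial 513 := Nat.dvd_factorial (by omega) hg2
      exact Dvd.dvd.mul_right (Dvd.dvd.mul_left h1 _) _)
    (fun g hg hg1 hgM B hZB hB =>
      good_rep_of hC y 17 (i + 16) ((2 ^ τ) ^ 4) (2 ^ 2 ^ (i + 1)) Z P A₁ B₁ A₂ B₂ e₁ e₂ e₃ e₄
        (Nat.one_le_pow _ _ (by positivity)) (by omega) hKy hPp hPy a1w b1w a2w b2w hdvdU hdiv (dvd_refl _)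
        (card1 A₁ a1c) (card1 B₁ b1c) (card2 A₂ a2c) (card2 B₂ b2c) g hg hg1 hgM B hZB hB)
    (density_core count_omega bad1_count bad2_count y₀ y 17 (i + 16) (2 ^ τ) (i + 1) (2 ^ (8 * i)) w₁ w₂ P A₁ B₁ A₂ B₂
      (by norm_num) le_rfl h16y (by omega) hPlo hPY (lt1 A₁ e₁ a1w a1e) (lt1 B₁ e₂ b1w b1e)
      hw1y0 (lt2 A₂ e₃ a2w a2e) (lt2 B₂ e₄ b2w b2e) (theta_ok i hi))
  intro B hZB hB c hc
  exact hfinal B hZB hB c hc

end Vale.Agent.Lib.P012c
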