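import Vale.Agent.Lib.P012_helper5.MainOf
import Vale.Agent.Lib.P012_helper29.CCoverAbs

/-!
# P012c: the bound `N(b) ≤ 50000 log log b`
-/

namespace Vale.Agent.Lib.P012c

theorem coverAbsStmt : CoverAbsStmt :=
  fun X val Q u y hX hQp hQy hu hS hy => cover_abs X val Q u y hX hQp hQy hu hS hy

theorem main (b : ℕ) (hb : Real.exp (Real.exp 700) ≤ (b : ℝ)) (a : ℕ) (ha : 1 ≤ a) (hab : a < b) :
    ∃ S : Finset ℕ, (∀ n ∈ S, 2 ≤ n) ∧
      (S.card : ℝ) ≤ 50000 * Real.log (Real.log b) ∧ ∑ n ∈ S, (1 / n : ℚ) = a / b :=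
  main_of_cover coverAbsStmt b hb a ha hab

end Vale.Agent.Lib.P012c
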